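import Vale.Agent.P181.H382.H112.Defs

set_option autoImplicit false

/-!
# P181, LS [S2]: the number of multisets of pairs

`NP a S T * a ^ (3 a) ≤ (55 (S + a) (T + a)) ^ a` by the generating function
`∏ (1 + w + .. + w ^ a)` with `w = z x ^ s y ^ c`, `x = S / (S + a)`, `y = T / (T + a)`,
`z = a ^ 3 / ((S + a) (T + a))`.
-/

namespace Vale.Agent.P181.LS.H648

open Vale.Agent.P181.H382.H112

/-- A short geometric sum with ratio at most one half. -/
theorem geo (a : ℕ) (w : ℝ) (h0 : 0 ≤ w) (h1 : w ≤ 1 / 2) :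
    ∑ j : Fin (a + 1), w ^ (j : ℕ) ≤ Real.exp (2 * w) := by
  rw [Fin.sum_univ_eq_sum_range (fun j => w ^ j) (a + 1)]
  have h2 : (∑ j ∈ Finset.range (a + 1), w ^ j) * (1 - w) = 1 - w ^ (a + 1) :=
    geom_sum_mul_neg w (a + 1)
  have h3 : 0 ≤ w ^ (a + 1) := pow_nonneg h0 _
  have h4 : (∑ j ∈ Finset.range (a + 1), w ^ j) * (1 - w) ≤ (1 + 2 * w) * (1 - w) := by
    rw [h2]; nlinarith
  have h5 : (0 : ℝ) < 1 - w := by linarith
  have h6 : ∑ j ∈ Finset.range (a + 1), w ^ j ≤ 1 + 2 * w := le_of_mul_le_mul_right h4 h5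
  have h7 := Real.add_one_le_exp (2 * w)
  linarith

/-- A geometric sum. -/
theorem geos (S : ℕ) (x : ℝ) (h0 : 0 ≤ x) :
    (∑ s : Fin (S + 1), x ^ (s : ℕ)) * (1 - x) ≤ 1 := by
  rw [Fin.sum_univ_eq_sum_range (fun j => x ^ j) (S + 1), geom_sum_mul_neg]
  have := pow_nonneg h0 (S + 1)
  linarith

/-- `(S / (S + a)) ^ S ≥ exp (- a)`. -/
theorem pw (a S : ℕ) : Real.exp (-(a : ℝ)) ≤ ((S : ℝ) / (S + a)) ^ S := by
  rcases Nat.eq_zero_or_pos S with h | h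
  · subst h
    simp
  · have hS : (0 : ℝ) < S := by exact_mod_cast h
    have ha : (0 : ℝ) ≤ a := Nat.cast_nonneg a
    have h1 := Real.add_one_le_exp ((a : ℝ) / S)
    have h2 : Real.exp (-((a : ℝ) / S)) ≤ (S : ℝ) / (S + a) := by
      rw [Real.exp_neg]
      have h3 : (S : ℝ) / (S + a) = ((a : ℝ) / S + 1)⁻¹ := by
        field_simp
        ring
      rw [h3]
      apply inv_anti₀ _ h1
      positivity
    have h4 : Real.exp (-(a : ℝ)) = Real.exp (-((a : ℝ) / S)) ^ S := by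
      rw [← Real.exp_nat_mul]
      congr 1
      field_simp
    rw [h4]
    exact pow_le_pow_left₀ (Real.exp_pos _).le h2 S

/-- The generating function bound. -/
theorem count (a S T : ℕ) (x y z : ℝ) (hx : 0 ≤ x) (hx1 : x ≤ 1) (hy : 0 ≤ y) (hy1 : y ≤ 1)
    (hz : 0 ≤ z) (hz1 : z ≤ 1 / 2) :
    (NP a S T : ℝ) * (z ^ a * x ^ S * y ^ T) ≤
      Real.exp (2 * (z * ((∑ s : Fin (S + 1), x ^ (s : ℕ)) * ∑ c : Fin (T + 1), y ^ (c : ℕ)))) := by
  classical
  set P := Fin (S + 1) × Fin (T + 1) with hP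
  set w : P → ℝ := fun p => z * x ^ (p.1 : ℕ) * y ^ (p.2 : ℕ) with hw
  have hw0 : ∀ p, 0 ≤ w p := fun p => by
    simp only [hw]; positivity
  have hw1 : ∀ p, w p ≤ 1 / 2 := fun p => by
    have h1 : x ^ (p.1 : ℕ) ≤ 1 := pow_le_one₀ hx hx1
    have h2 : y ^ (p.2 : ℕ) ≤ 1 := pow_le_one₀ hy hy1
    have h3 : 0 ≤ x ^ (p.1 : ℕ) := pow_nonneg hx _
    have h4 : 0 ≤ y ^ (p.2 : ℕ) := pow_nonneg hy _
    have h5 : x ^ (p.1 : ℕ) * y ^ (p.2 : ℕ) ≤ 1 := mul_le_one₀ h1 h4 h2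
    have h6 : w p = z * (x ^ (p.1 : ℕ) * y ^ (p.2 : ℕ)) := by simp only [hw]; ring
    rw [h6]
    calc z * (x ^ (p.1 : ℕ) * y ^ (p.2 : ℕ)) ≤ z * 1 := mul_le_mul_of_nonneg_left h5 hz
      _ ≤ 1 / 2 := by linarith
  have e1 : (NP a S T : ℝ) * (z ^ a * x ^ S * y ^ T) =
      ∑ m ∈ (Finset.univ.filter fun m : P → Fin (a + 1) =>
        ∑ p, (m p : ℕ) = a ∧ ∑ p, (m p : ℕ) * (p.1 : ℕ) = S ∧ ∑ p, (m p : ℕ) * (p.2 : ℕ) = T),
        ∏ p, w p ^ (m p : ℕ) := by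
    rw [Finset.sum_congr rfl (g := fun _ => z ^ a * x ^ S * y ^ T)]
    · rw [Finset.sum_const, nsmul_eq_mul]
      rfl
    · intro m hm
      rw [Finset.mem_filter] at hm
      obtain ⟨-, h1, h2, h3⟩ := hm
      simp only [hw, mul_pow, ← pow_mul, Finset.prod_mul_distrib, Finset.prod_pow_eq_pow_sum]
      rw [h1]
      have h2' : ∑ p : P, (p.1 : ℕ) * (m p : ℕ) = S :=
        (Finset.sum_congr rfl fun p _ => mul_comm _ _).trans h2
      have h3' : ∑ p : P, (p.2 : ℕ) * (m p : ℕ) = T :=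
        (Finset.sum_congr rfl fun p _ => mul_comm _ _).trans h3
      rw [h2', h3']
  have e2 : ∑ m : P → Fin (a + 1), ∏ p, w p ^ (m p : ℕ) = ∏ p, ∑ j : Fin (a + 1), w p ^ (j : ℕ) := by
    rw [Finset.prod_univ_sum, Fintype.piFinset_univ]
  have e3 : ∑ p : P, w p = z * ((∑ s : Fin (S + 1), x ^ (s : ℕ)) * ∑ c : Fin (T + 1), y ^ (c : ℕ)) := by
    rw [Finset.sum_mul_sum, Finset.mul_sum]
    have e4 : ∑ p : P, w p = ∑ s : Fin (S + 1), ∑ c : Fin (T + 1), w (s, c) :=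
      Fintype.sum_prod_type w
    rw [e4]
    refine Finset.sum_congr rfl fun s _ => ?_
    rw [Finset.mul_sum]
    refine Finset.sum_congr rfl fun c _ => ?_
    simp only [hw]; ring
  rw [e1, ← e3]
  calc ∑ m ∈ (Finset.univ.filter fun m : P → Fin (a + 1) =>
        ∑ p, (m p : ℕ) = a ∧ ∑ p, (m p : ℕ) * (p.1 : ℕ) = S ∧ ∑ p, (m p : ℕ) * (p.2 : ℕ) = T),
        ∏ p, w p ^ (m p : ℕ) ≤ ∑ m : P → Fin (a + 1), ∏ p, w p ^ (m p : ℕ) := by
        apply Finset.sum_le_sum_of_subset_of_nonneg (Finset.filter_subset _ _)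
        intro m _ _
        exact Finset.prod_nonneg fun p _ => pow_nonneg (hw0 p) _
    _ = ∏ p, ∑ j : Fin (a + 1), w p ^ (j : ℕ) := e2
    _ ≤ ∏ p, Real.exp (2 * w p) := by
        apply Finset.prod_le_prod
        · intro p _
          exact Finset.sum_nonneg fun j _ => pow_nonneg (hw0 p) _
        · intro p _
          exact geo a (w p) (hw0 p) (hw1 p)
    _ = Real.exp (2 * ∑ p, w p) := by
        rw [← Real.exp_sum, Finset.mul_sum]

/-- `e ^ 4 ≤ 55`. -/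
theorem e4 : Real.exp 4 ≤ 55 := by
  have h1 : Real.exp 4 = Real.exp 1 ^ 4 := by
    rw [← Real.exp_nat_mul]; norm_num
  rw [h1]
  have h2 := Real.exp_one_lt_d9
  have h3 := Real.exp_pos 1
  calc Real.exp 1 ^ 4 ≤ (2.7182818286 : ℝ) ^ 4 := pow_le_pow_left₀ h3.le h2.le 4
    _ ≤ 55 := by norm_num

/-- **(S2)**. -/
theorem cntC : CntC := by
  intro a S T ha h
  have haR : (0 : ℝ) < a := by exact_mod_cast ha
  have hS0 : (0 : ℝ) ≤ S := Nat.cast_nonneg S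
  have hT0 : (0 : ℝ) ≤ T := Nat.cast_nonneg T
  have hSa : (0 : ℝ) < (S : ℝ) + a := by positivity
  have hTa : (0 : ℝ) < (T : ℝ) + a := by positivity
  have hR : 2 * (a : ℝ) ^ 3 ≤ ((S : ℝ) + a) * (T + a) := by exact_mod_cast h
  set Q : ℝ := ((S : ℝ) + a) * (T + a) with hQ
  have hQ0 : 0 < Q := mul_pos hSa hTa
  set x : ℝ := (S : ℝ) / (S + a) with hx
  set y : ℝ := (T : ℝ) / (T + a) with hy
  set z : ℝ := (a : ℝ) ^ 3 / Q with hz
  have hx0 : 0 ≤ x := by positivity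
  have hy0 : 0 ≤ y := by positivity
  have hz0 : 0 < z := by positivity
  have hx1 : x ≤ 1 := by rw [hx, div_le_one hSa]; linarith
  have hy1 : y ≤ 1 := by rw [hy, div_le_one hTa]; linarith
  have hz1 : z ≤ 1 / 2 := by
    rw [hz, div_le_iff₀ hQ0]; linarith
  have hc := count a S T x y z hx0 hx1 hy0 hy1 hz0.le hz1
  have g1 := geos S x hx0
  have g2 := geos T y hy0
  set A : ℝ := ∑ s : Fin (S + 1), x ^ (s : ℕ) with hA
  set B : ℝ := ∑ c : Fin (T + 1), y ^ (c : ℕ) with hB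
  have hA0 : 0 ≤ A := Finset.sum_nonneg fun s _ => pow_nonneg hx0 _
  have hB0 : 0 ≤ B := Finset.sum_nonneg fun s _ => pow_nonneg hy0 _
  have x1 : 1 - x = a / (S + a) := by rw [hx]; field_simp; ring
  have y1 : 1 - y = a / (T + a) := by rw [hy]; field_simp; ring
  have hA1 : A ≤ (S + a) / a := by
    rw [le_div_iff₀ haR]
    rw [x1, mul_div_assoc', div_le_one hSa] at g1
    exact g1
  have hB1 : B ≤ (T + a) / a := by
    rw [le_div_iff₀ haR]
    rw [y1, mul_div_assoc', div_le_one hTa] at g2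
    exact g2
  have hz2 : z * (A * B) ≤ a := by
    calc z * (A * B) ≤ z * (((S + a) / a) * ((T + a) / a)) := by gcongr
      _ = a := by
        rw [hz, hQ]; field_simp
  have h1 : (NP a S T : ℝ) * (z ^ a * x ^ S * y ^ T) ≤ Real.exp (2 * a) :=
    hc.trans (Real.exp_le_exp.2 (by linarith))
  have h2 : (NP a S T : ℝ) * z ^ a * (Real.exp (-(a : ℝ)) * Real.exp (-(a : ℝ))) ≤
      Real.exp (2 * a) := by
    calc (NP a S T : ℝ) * z ^ a * (Real.exp (-(a : ℝ)) * Real.exp (-(a : ℝ)))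
        ≤ (NP a S T : ℝ) * z ^ a * (x ^ S * y ^ T) := by
          apply mul_le_mul_of_nonneg_left
          · exact mul_le_mul (pw a S) (pw a T) (Real.exp_pos _).le (by positivity)
          · positivity
      _ = (NP a S T : ℝ) * (z ^ a * x ^ S * y ^ T) := by ring
      _ ≤ _ := h1
  have h3 : (NP a S T : ℝ) * z ^ a ≤ 55 ^ a := by
    have e1 : Real.exp (4 * a) * (Real.exp (-(a : ℝ)) * Real.exp (-(a : ℝ))) =
        Real.exp (2 * a) := by
      rw [← Real.exp_add, ← Real.exp_add]; congr 1; ring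
    have e2 : (NP a S T : ℝ) * z ^ a ≤ Real.exp (4 * a) := by
      rw [← e1] at h2
      exact le_of_mul_le_mul_right h2 (by positivity)
    have e3 : Real.exp (4 * a) = Real.exp 4 ^ a := by
      rw [← Real.exp_nat_mul]; congr 1; ring
    rw [e3] at e2
    exact e2.trans (pow_le_pow_left₀ (Real.exp_pos _).le e4 a)
  have h4 : (NP a S T : ℝ) * (a : ℝ) ^ (3 * a) ≤ (55 * Q) ^ a := by
    have e5 : (a : ℝ) ^ (3 * a) = z ^ a * Q ^ a := by
      rw [← mul_pow, hz, div_mul_cancel₀ _ hQ0.ne', pow_mul]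
    calc (NP a S T : ℝ) * (a : ℝ) ^ (3 * a) = ((NP a S T : ℝ) * z ^ a) * Q ^ a := by
          rw [e5]; ring
      _ ≤ 55 ^ a * Q ^ a := by gcongr
      _ = (55 * Q) ^ a := (mul_pow _ _ _).symm
  rw [hQ] at h4
  exact_mod_cast h4

end Vale.Agent.P181.LS.H648
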